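import Mathlib

/-!
[W2] The determinant of a matrix which is a short sum of products with small second factors is
divisible by a high power of `p`.
-/

namespace Vale.Agent.P024.H114.W

open Finset

theorem dvd_det_of_rows {O : Type*} [CommRing O] (p : O) {L : ℕ} (M : Matrix (Fin L) (Fin L) O)
    (e : Fin L → ℕ) (h : ∀ a b, p ^ e a ∣ M a b) : p ^ (∑ a, e a) ∣ M.det := by
  choose M' hM' using h
  have h1 : M = Matrix.of fun a b => p ^ e a * M' a b := by
    ext a b
    exact hM' a b
  have h2 := Matrix.det_mul_column (fun a => p ^ e a) (Matrix.of M')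
  rw [prod_pow_eq_pow_sum] at h2
  rw [h1]
  exact ⟨_, h2⟩

theorem card_small (r N E : ℕ) :
    (univ.filter fun κ : Fin r → Fin N => ∑ i, (κ i : ℕ) < E).card ≤ E ^ r := by
  classical
  rcases Nat.eq_zero_or_pos E with rfl | hE
  · rw [filter_eq_empty_iff.2 (fun κ _ => Nat.not_lt_zero _)]
    exact Nat.zero_le _
  have h1 : (univ : Finset (Fin r → Fin E)).card = E ^ r := by
    rw [card_univ, Fintype.card_fun, Fintype.card_fin, Fintype.card_fin]
  rw [← h1]
  refine card_le_card_of_injOn (fun κ i => ⟨min (κ i : ℕ) (E - 1), by omega⟩)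
    (fun _ _ => mem_univ _) ?_
  intro κ hκ κ' hκ' hkk
  have hlt : ∀ κ : Fin r → Fin N, κ ∈ (univ.filter fun κ : Fin r → Fin N =>
      ∑ i, (κ i : ℕ) < E) → ∀ i, (κ i : ℕ) < E := by
    intro κ hκ i
    refine lt_of_le_of_lt ?_ (mem_filter.1 hκ).2
    exact single_le_sum (f := fun i => (κ i : ℕ)) (fun _ _ => Nat.zero_le _) (mem_univ i)
  funext i
  apply Fin.ext
  have h2 := congrFun hkk i
  have h3 := congrArg Fin.val h2
  simp only at h3
  have h4 := hlt κ hκ i
  have h5 := hlt κ' hκ' i
  omega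

theorem det_dvd {O : Type*} [CommRing O] (p : O) (r L E m : ℕ) (hE : 2 * E ^ r ≤ L)
    (M : Matrix (Fin L) (Fin L) O) (N : ℕ) (A : Fin L → (Fin r → Fin N) → O)
    (B : (Fin r → Fin N) → Fin L → O)
    (hM : ∀ a b, p ^ m ∣ M a b - ∑ κ, A a κ * B κ b)
    (hB : ∀ κ b, p ^ (∑ i, (κ i : ℕ)) ∣ B κ b) (hm : E * (L / 2) ≤ m) :
    p ^ (E * (L / 2)) ∣ M.det := by
  classical
  let M' : Matrix (Fin L) (Fin L) O := fun a => ∑ κ, A a κ • B κ
  have hM'ab : ∀ a b, M' a b = ∑ κ, A a κ * B κ b := by
    intro a b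
    simp only [M', Finset.sum_apply, Pi.smul_apply, smul_eq_mul]
  -- the difference of the determinants
  have hdiff : p ^ m ∣ M.det - M'.det := by
    rw [← Ideal.mem_span_singleton, ← Ideal.Quotient.eq]
    rw [RingHom.map_det, RingHom.map_det]
    congr 1
    ext a b
    rw [RingHom.mapMatrix_apply, RingHom.mapMatrix_apply, Matrix.map_apply, Matrix.map_apply,
      Ideal.Quotient.eq, Ideal.mem_span_singleton, hM'ab]
    exact hM a b
  have hM' : p ^ (E * (L / 2)) ∣ M'.det := by
    have h1 : M'.det = ∑ f : Fin L → (Fin r → Fin N),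
        (∏ a, A a (f a)) • Matrix.det (fun a => B (f a)) := by
      have h2 : M'.det = (Matrix.detRowAlternating (n := Fin L) (R := O)).toMultilinearMap
          (fun a => ∑ κ, A a κ • B κ) := rfl
      rw [h2, MultilinearMap.map_sum]
      refine sum_congr rfl fun f _ => ?_
      rw [MultilinearMap.map_smul_univ]
      rfl
    rw [h1]
    refine dvd_sum fun f _ => ?_
    rw [smul_eq_mul]
    apply Dvd.dvd.mul_left
    by_cases hf : Function.Injective f
    · refine (pow_dvd_pow p ?_).trans (dvd_det_of_rows p _ (fun a => ∑ i, ((f a) i : ℕ))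
        (fun a b => hB (f a) b))
      -- the sum of the degrees
      let S : Finset (Fin L) := univ.filter fun a => ∑ i, ((f a) i : ℕ) < E
      have hS : S.card ≤ E ^ r := by
        refine le_trans ?_ (card_small r N E)
        refine card_le_card_of_injOn f ?_ (hf.injOn)
        intro a ha
        exact mem_filter.2 ⟨mem_univ _, (mem_filter.1 ha).2⟩
      have hSc : Sᶜ.card = L - S.card := by
        rw [card_compl, Fintype.card_fin]
      have h3 : ∑ _a ∈ Sᶜ, E ≤ ∑ a ∈ Sᶜ, ∑ i, ((f a) i : ℕ) := by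
        refine sum_le_sum fun a ha => ?_
        rw [mem_compl, mem_filter, not_and, not_lt] at ha
        exact ha (mem_univ _)
      have h4 : ∑ a ∈ Sᶜ, ∑ i, ((f a) i : ℕ) ≤ ∑ a, ∑ i, ((f a) i : ℕ) :=
        sum_le_sum_of_subset (subset_univ _)
      rw [sum_const, smul_eq_mul] at h3
      refine le_trans ?_ (h3.trans h4)
      rw [mul_comm]
      apply Nat.mul_le_mul_right
      omega
    · have h0 : Matrix.det (fun a => B (f a)) = 0 := by
        rw [Function.Injective] at hf
        push Not at hf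
        obtain ⟨a, b, hab, hne⟩ := hf
        exact Matrix.det_zero_of_row_eq hne (by rw [hab])
      rw [h0]
      exact dvd_zero _
  have h5 := dvd_add ((pow_dvd_pow p hm).trans hdiff) hM'
  rwa [sub_add_cancel] at h5

end Vale.Agent.P024.H114.W
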