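import Mathlib

/-!
[W3] Size of an algebraic integer which is divisible by a power of `p`, and of determinants.
-/

namespace Vale.Agent.P024.H114.W

open Finset NumberField

/-- A nonzero algebraic integer has a conjugate of absolute value at least one; the form with a
power of `p`. -/
theorem size {N : Type*} [Field N] [NumberField N] (Δ δ : 𝓞 N) (p m : ℕ)
    (h : Δ = (p : 𝓞 N) ^ m * δ) (hδ : δ ≠ 0) (B : ℝ)
    (hB : ∀ φ : N →+* ℂ, ‖φ (Δ : N)‖ ≤ B) : (p : ℝ) ^ m ≤ B := by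
  have h1 : ∏ φ : N →+* ℂ, ‖φ (δ : N)‖ = |(Algebra.norm ℤ δ : ℝ)| := by
    have h2 := Algebra.norm_eq_prod_embeddings ℚ ℂ (δ : N)
    have h3 : ((Algebra.norm ℤ δ : ℤ) : ℚ) = Algebra.norm ℚ (δ : N) := Algebra.coe_norm_int δ
    rw [← h3] at h2
    have h4 : ((Algebra.norm ℤ δ : ℤ) : ℂ) = ∏ σ : N →ₐ[ℚ] ℂ, σ (δ : N) := by
      rw [← h2]
      simp
    have h5 : |(Algebra.norm ℤ δ : ℝ)| = ‖((Algebra.norm ℤ δ : ℤ) : ℂ)‖ := by
      rw [Complex.norm_intCast]
    rw [h5, h4, norm_prod]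
    refine Fintype.prod_equiv (RingHom.equivRatAlgHom N ℂ) _ _ fun φ => ?_
    rfl
  have h2 : (1 : ℝ) ≤ ∏ φ : N →+* ℂ, ‖φ (δ : N)‖ := by
    rw [h1]
    have h3 : Algebra.norm ℤ δ ≠ 0 := Algebra.norm_ne_zero_iff.2 hδ
    have h4 : (1 : ℤ) ≤ |Algebra.norm ℤ δ| := Int.one_le_abs h3
    exact_mod_cast h4
  by_contra hcon
  push Not at hcon
  -- all conjugates of `δ` have absolute value less than one
  have hp : (0 : ℝ) < (p : ℝ) ^ m := by
    rcases eq_or_lt_of_le (show (0 : ℝ) ≤ (p : ℝ) ^ m by positivity) with h3 | h3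
    · exfalso
      obtain ⟨φ⟩ : Nonempty (N →+* ℂ) := inferInstance
      have := (norm_nonneg _).trans (hB φ)
      linarith
    · exact h3
  have h3 : ∀ φ : N →+* ℂ, ‖φ (δ : N)‖ < 1 := by
    intro φ
    have h4 := hB φ
    have h5 : (Δ : N) = (p : N) ^ m * (δ : N) := by
      rw [h]
      simp
    rw [h5, map_mul, map_pow, map_natCast, norm_mul, norm_pow, Complex.norm_natCast] at h4
    have h6 : (p : ℝ) ^ m * ‖φ (δ : N)‖ < (p : ℝ) ^ m * 1 := by
      rw [mul_one]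
      exact h4.trans_lt hcon
    exact lt_of_mul_lt_mul_left h6 hp.le
  have h4 : ∏ φ : N →+* ℂ, ‖φ (δ : N)‖ < 1 := by
    obtain ⟨φ₀⟩ : Nonempty (N →+* ℂ) := inferInstance
    calc ∏ φ : N →+* ℂ, ‖φ (δ : N)‖ < ∏ _φ : N →+* ℂ, (1 : ℝ) := by
          refine prod_lt_prod ?_ (fun φ _ => (h3 φ).le) ⟨φ₀, mem_univ _, h3 φ₀⟩
          intro φ _
          rw [norm_pos_iff]
          intro h5
          rw [map_eq_zero] at h5
          apply hδ
          exact RingOfIntegers.ext (by simpa using h5)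
      _ = 1 := by simp
  linarith

/-- Bound of a determinant. -/
theorem norm_det_le {n : Type*} [Fintype n] [DecidableEq n] (A : Matrix n n ℂ) (x : n → ℝ)
    (hx : ∀ i j, ‖A i j‖ ≤ x i) : ‖A.det‖ ≤ (Fintype.card n).factorial * ∏ i, x i := by
  rw [← Matrix.det_transpose, Matrix.det_apply]
  refine (norm_sum_le _ _).trans ?_
  calc ∑ σ : Equiv.Perm n, ‖Equiv.Perm.sign σ • ∏ i, A.transpose (σ i) i‖
      ≤ ∑ _σ : Equiv.Perm n, ∏ i, x i := by
        refine sum_le_sum fun σ _ => ?_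
        have h1 : ‖Equiv.Perm.sign σ • ∏ i, A.transpose (σ i) i‖ =
            ‖∏ i, A.transpose (σ i) i‖ := by
          rcases Int.units_eq_one_or (Equiv.Perm.sign σ) with h | h <;> rw [h] <;> simp
        rw [h1, norm_prod]
        exact prod_le_prod (fun _ _ => norm_nonneg _) fun i _ => hx i (σ i)
    _ = (Fintype.card n).factorial * ∏ i, x i := by
        rw [sum_const, card_univ, Fintype.card_perm, nsmul_eq_mul]

/-- Uniform bound of a determinant. -/
theorem norm_det_le_pow {L : ℕ} (A : Matrix (Fin L) (Fin L) ℂ) (X : ℝ)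
    (hx : ∀ i j, ‖A i j‖ ≤ X) : ‖A.det‖ ≤ L.factorial * X ^ L := by
  have h := norm_det_le A (fun _ => X) hx
  rwa [Fintype.card_fin, prod_const, card_univ, Fintype.card_fin] at h

/-- The form used: a nonzero determinant of algebraic integers divisible by `p ^ m`. -/
theorem size_det {N : Type*} [Field N] [NumberField N] {L : ℕ}
    (M : Matrix (Fin L) (Fin L) (𝓞 N)) (p m : ℕ) (hdvd : (p : 𝓞 N) ^ m ∣ M.det)
    (hM : M.det ≠ 0) (X : ℝ) (hX : ∀ (φ : N →+* ℂ) (i j : Fin L), ‖φ (M i j : N)‖ ≤ X) :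
    (p : ℝ) ^ m ≤ L.factorial * X ^ L := by
  obtain ⟨δ, hδ⟩ := hdvd
  refine size M.det δ p m hδ (by rintro rfl; rw [mul_zero] at hδ; exact hM hδ) _ fun φ => ?_
  have h1 : φ ((M.det : 𝓞 N) : N) =
      Matrix.det (fun i j => φ (M i j : N)) := by
    have h2 := RingHom.map_det (φ.comp (algebraMap (𝓞 N) N)) M
    exact h2
  rw [h1]
  exact norm_det_le_pow _ X fun i j => hX φ i j

end Vale.Agent.P024.H114.W
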